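import Crest.Agent.R213.J0
import Crest.Agent.R213.FlowDef

/-!
# Row 213, part P: assembly of `flow_exists` from `soliton_exists`, `bg_exists`, `pde_main`
-/

set_option autoImplicit false

open Set MeasureTheory Filter Topology

noncomputable section

namespace Crest.Agent.R213.P

open Crest.Agent.R213

/-! ### `Kint`: linearity and scaling (private copies) -/

theorem kint_integrable {F : ℝ → ℝ} {L x : ℝ} (hF : ContinuousOn F (Icc 0 L)) (hx : x ∈ Icc 0 L) :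
    IntervalIntegrable (fun ξ => (x - ξ) * ξ ^ 9 * F ξ) volume 0 x := by
  apply ContinuousOn.intervalIntegrable
  rw [uIcc_of_le hx.1]
  refine ContinuousOn.mul (Continuous.continuousOn (by fun_prop)) ?_
  exact hF.mono (Icc_subset_Icc_right hx.2)

theorem kint_add {F G : ℝ → ℝ} {L x : ℝ} (hF : ContinuousOn F (Icc 0 L))
    (hG : ContinuousOn G (Icc 0 L)) (hx : x ∈ Icc 0 L) :
    Kint (fun ξ => F ξ + G ξ) x = Kint F x + Kint G x := by
  unfold Kint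
  rw [← intervalIntegral.integral_add (kint_integrable hF hx) (kint_integrable hG hx)]
  congr 1
  ext ξ
  ring

/-- `Kint (k F(k·)) x = k^{-10} Kint F (k x)` -/
theorem kint_scale {F : ℝ → ℝ} {k x : ℝ} (hk : 0 < k) :
    Kint (fun ξ => k * F (k * ξ)) x = (k ^ 10)⁻¹ * Kint F (k * x) := by
  unfold Kint
  have h := intervalIntegral.integral_comp_mul_left (a := (0 : ℝ)) (b := x)
    (fun η => (k * x - η) * η ^ 9 * F η) hk.ne'
  simp only [mul_zero, smul_eq_mul] at h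
  have h2 : ∀ ξ : ℝ, (x - ξ) * ξ ^ 9 * (k * F (k * ξ))
      = (k ^ 9)⁻¹ * ((k * x - k * ξ) * (k * ξ) ^ 9 * F (k * ξ)) := by
    intro ξ
    field_simp
  simp only [h2]
  rw [intervalIntegral.integral_const_mul, h]
  rw [← mul_assoc, ← mul_inv]
  ring_nf

/-! ### Assembly -/

theorem flow_exists_of
    (hsol : ∃ (c A : ℝ) (g gh : ℝ → ℝ), Soliton c A g gh)
    (hbg : ∀ {c A : ℝ} {g gh : ℝ → ℝ} (_ : Soliton c A g gh),
      ∃ c0 C0 : ℝ, Prof c0 C0 g ∧ ∀ P : ℕ, ∃ L2 : ℝ, ∀ L ≥ L2, ∃ φ m w S E : ℝ → ℝ → ℝ,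
      Bg c0 C0 g L φ m ∧ Sm (Ioo 0 1) L w ∧ Sm (Ioo 0 1) L S ∧ Sm (Ioo 0 1) L E ∧
      (∀ τ ∈ Ioo (0 : ℝ) 1, ∀ x ∈ Ioo 0 L, 1 / φ τ x = 1 / x + 1 / (L - x) + w τ x) ∧
      (∀ τ ∈ Ioo (0 : ℝ) 1, ∀ x ∈ Icc 0 L, x ^ 10 - x ^ 9 * φ τ x = Kint (S τ) x) ∧
      (∀ τ ∈ Ioo (0 : ℝ) 1, ∀ x ∈ Icc 0 L,
        dx L (dx L E) τ x = dt w τ x - dx L (dx L S) τ x) ∧
      (∀ τ ∈ Ioo (0 : ℝ) 1, S τ 0 = 110 * A / √τ) ∧
      (∀ τ ∈ Ioo (0 : ℝ) 1, ∀ x ∈ Icc 0 1, E τ x = 0) ∧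
      (∀ j ≤ 9, ∀ τ ∈ Ioo (0 : ℝ) 1, ∀ x ∈ Icc 0 L, |(dt^[j] E) τ x| ≤ L ^ (-(P : ℝ))))
    (hpde : ∀ {c0 C0 : ℝ} {g : ℝ → ℝ} (_ : Prof c0 C0 g),
      ∃ (L1 : ℝ) (P : ℕ), ∀ L ≥ L1, ∀ φ m : ℝ → ℝ → ℝ, Bg c0 C0 g L φ m →
      ∀ E : ℝ → ℝ → ℝ, Sm (Ioo 0 1) L E →
        (∀ τ ∈ Ioo (0 : ℝ) 1, ∀ x ∈ Icc 0 1, E τ x = 0) →
        (∀ j ≤ 9, ∀ τ ∈ Ioo (0 : ℝ) 1, ∀ x ∈ Icc 0 L, |(dt^[j] E) τ x| ≤ L ^ (-(P : ℝ))) →
      ∃ δ : ℝ → ℝ → ℝ, Sm (Ioo 0 (1 / 4)) L δ ∧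
        (∀ τ ∈ Ioo (0 : ℝ) (1 / 4), ∀ x ∈ Icc 0 L, |φ τ x * dx L (dx L δ) τ x| ≤ 1 / 2) ∧
        (∀ τ ∈ Ioo (0 : ℝ) (1 / 4), ∀ x ∈ Icc 0 L,
          x ^ 9 * φ τ x * (φ τ x * dx L (dx L δ) τ x / (1 + φ τ x * dx L (dx L δ) τ x)) =
            Kint (fun ξ => E τ ξ + dt δ τ ξ) x) ∧
        Tendsto (fun τ => √τ * dt δ τ 0) (𝓝[>] 0) (𝓝 0)) :
    ∃ (T ε a : ℝ) (w S : ℝ → ℝ → ℝ), Flow T ε w S ∧ 0 < a ∧
      Tendsto (fun t => S t 0 * √(T - t)) (𝓝[<] T) (𝓝 a) := by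
  obtain ⟨c, A, g, gh, hsol⟩ := hsol
  obtain ⟨c0, C0, hProf, hb⟩ := hbg hsol
  obtain ⟨L1, P, hp⟩ := hpde hProf
  obtain ⟨L2, hb⟩ := hb P
  set L := max (max L1 L2) 8 with hLdef
  have hL8 : 8 ≤ L := le_max_right _ _
  have hL : 0 < L := by linarith
  obtain ⟨φ, m, wa, Sa, E, hB, hwa, hSa, hE, hphi, hscal, hres, hS0, hE0, hEb⟩ :=
    hb L ((le_max_right _ _).trans (le_max_left _ _))
  obtain ⟨δ, hδ, hb2, heq, hlim⟩ :=
    hp L ((le_max_left _ _).trans (le_max_left _ _)) φ m hB E hE hE0 hEb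
  have hsub : Ioo (0 : ℝ) (1 / 4) ⊆ Ioo 0 1 := Ioo_subset_Ioo_right (by norm_num)
  have hs : IsOpen (Ioo (0 : ℝ) (1 / 4)) := isOpen_Ioo
  -- the corrected functions
  have hwa' := hwa.mono hsub
  have hSa' := hSa.mono hsub
  have hE' := hE.mono hsub
  have hδt : Sm (Ioo (0 : ℝ) (1 / 4)) L (dt δ) := hδ.dt hs hL
  have hδx : Sm (Ioo (0 : ℝ) (1 / 4)) L (dx L δ) := hδ.dx hs hL
  have hδxx : Sm (Ioo (0 : ℝ) (1 / 4)) L (dx L (dx L δ)) := hδx.dx hs hL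
  set w : ℝ → ℝ → ℝ := fun τ x => wa τ x + dx L (dx L δ) τ x with hw
  set S : ℝ → ℝ → ℝ := fun τ x => Sa τ x + (E τ x + dt δ τ x) with hS
  have hwS : Sm (Ioo (0 : ℝ) (1 / 4)) L w := hwa'.add hδxx
  have hSS : Sm (Ioo (0 : ℝ) (1 / 4)) L S := hSa'.add (hE'.add hδt)
  -- the flow equation in the variable τ
  have hflow : ∀ τ ∈ Ioo (0 : ℝ) (1 / 4), ∀ x ∈ Icc 0 L,
      dt w τ x = dx L (dx L S) τ x := by
    intro τ hτ x hx
    have h1 : dt w τ x = dt wa τ x + dt (dx L (dx L δ)) τ x := hwa'.dt_add hδxx hs hτ hx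
    have h2 : dt (dx L (dx L δ)) τ x = dx L (dx L (dt δ)) τ x := by
      rw [hδx.dt_dx hs hL hτ hx]
      exact dx_congr (fun y hy => hδ.dt_dx hs hL hτ hy) hx
    have h3 : dx L (dx L S) τ x
        = dx L (dx L Sa) τ x + (dx L (dx L E) τ x + dx L (dx L (dt δ)) τ x) := by
      have e1 : ∀ y ∈ Icc 0 L, dx L S τ y
          = (fun t z => dx L Sa t z + (dx L E t z + dx L (dt δ) t z)) τ y := by
        intro y hy
        have := hSa'.dx_add (hE'.add hδt) hL hτ hy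
        have h' := hE'.dx_add hδt hL hτ hy
        simp only [hS]
        rw [this, h']
      rw [dx_congr (u := fun t z => dx L Sa t z + (dx L E t z + dx L (dt δ) t z)) e1 hx]
      rw [(hSa'.dx hs hL).dx_add ((hE'.dx hs hL).add (hδt.dx hs hL)) hL hτ hx,
        (hE'.dx hs hL).dx_add (hδt.dx hs hL) hL hτ hx]
    have h4 := hres τ (hsub hτ) x hx
    rw [h1, h2, h3, h4]
    ring
  -- scalar curvature identity
  have hK : ∀ τ ∈ Ioo (0 : ℝ) (1 / 4), ∀ x ∈ Icc 0 L,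
      x ^ 10 - x ^ 9 * (φ τ x / (1 + φ τ x * dx L (dx L δ) τ x)) = Kint (S τ) x := by
    intro τ hτ x hx
    have h1 := hscal τ (hsub hτ) x hx
    have h2 := heq τ hτ x hx
    have h3 : Kint (S τ) x = Kint (Sa τ) x + Kint (fun ξ => E τ ξ + dt δ τ ξ) x :=
      kint_add (hSa'.continuousOn_right hτ) ((hE'.add hδt).continuousOn_right hτ) hx
    have hb' := abs_le.1 (hb2 τ hτ x hx)
    have hne : (1 + φ τ x * dx L (dx L δ) τ x) ≠ 0 := by
      have := hb'.1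
      intro h0
      linarith
    rw [h3, ← h1, ← h2]
    field_simp
    ring
  -- positivity of φ in the interior
  have hφpos : ∀ τ ∈ Ioo (0 : ℝ) (1 / 4), ∀ x ∈ Ioo 0 L, 0 < φ τ x := by
    intro τ hτ x hx
    rw [hB.phi_eq τ (hsub hτ) x (Ioo_subset_Icc_self hx)]
    have h1 : 0 < m τ x :=
      lt_of_lt_of_le hProf.c0_pos (hB.lower τ (hsub hτ) x (Ioo_subset_Icc_self hx))
    have h2 : 0 < 1 - x / L := by
      rw [sub_pos, div_lt_one hL]; exact hx.2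
    have := hx.1
    positivity
  have hwφ : ∀ τ ∈ Ioo (0 : ℝ) (1 / 4), ∀ x ∈ Ioo 0 L,
      1 / x + 1 / (L - x) + w τ x = (1 + φ τ x * dx L (dx L δ) τ x) / φ τ x := by
    intro τ hτ x hx
    have h1 := hphi τ (hsub hτ) x hx
    have h2 := (hφpos τ hτ x hx).ne'
    simp only [hw]
    rw [← add_assoc, ← h1]
    field_simp
  -- rescaling
  set T : ℝ := 1 / (8 * L ^ 2) with hT
  have hTpos : 0 < T := by positivity
  have hmaps : ∀ t ∈ Ioo (-T) T, L ^ 2 * T + -L ^ 2 * t ∈ Ioo (0 : ℝ) (1 / 4) := by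
    intro t ht
    have hLT : L ^ 2 * T = 1 / 8 := by rw [hT]; field_simp
    have hL2 : 0 < L ^ 2 := by positivity
    constructor
    · have := mul_lt_mul_of_pos_left ht.2 hL2
      linarith
    · have := mul_lt_mul_of_pos_left ht.1 hL2
      linarith
  have hIo : IsOpen (Ioo (-T) T) := isOpen_Ioo
  have hwL : Sm (Ioo (0 : ℝ) (1 / 4)) (L * 1) w := by rwa [mul_one]
  have hSL : Sm (Ioo (0 : ℝ) (1 / 4)) (L * 1) S := by rwa [mul_one]
  have hw1 : Sm (Ioo (-T) T) 1 (fun t x => w (L ^ 2 * T + -L ^ 2 * t) (L * x)) :=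
    Sm.scale hL hwL hmaps
  have hS1 : Sm (Ioo (-T) T) 1 (fun t x => S (L ^ 2 * T + -L ^ 2 * t) (L * x)) :=
    Sm.scale hL hSL hmaps
  have hxL : ∀ x ∈ Icc (0 : ℝ) 1, L * x ∈ Icc 0 L := fun x hx =>
    ⟨mul_nonneg hL.le hx.1, by nlinarith [hx.2]⟩
  have key : ∀ t ∈ Ioo (-T) T, ∀ x ∈ Ioo (0 : ℝ) 1,
      1 + x * (1 - x) * (L * w (L ^ 2 * T + -L ^ 2 * t) (L * x))
        = x * (1 - x) * (L * ((1 + φ (L ^ 2 * T + -L ^ 2 * t) (L * x) *
            dx L (dx L δ) (L ^ 2 * T + -L ^ 2 * t) (L * x)) /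
              φ (L ^ 2 * T + -L ^ 2 * t) (L * x))) := by
    intro t ht x hx
    have hx' : L * x ∈ Ioo 0 L := ⟨mul_pos hL hx.1, by nlinarith [hx.2]⟩
    have h := hwφ _ (hmaps t ht) (L * x) hx'
    have h1x : (1 - x) ≠ 0 := by linarith [hx.2]
    have hx0 : x ≠ 0 := hx.1.ne'
    have hLx : L - L * x ≠ 0 := by
      have : L - L * x = L * (1 - x) := by ring
      rw [this]; exact mul_ne_zero hL.ne' h1x
    rw [← h]
    have : L - L * x = L * (1 - x) := by ring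
    rw [this]
    field_simp
    ring
  refine ⟨T, T, 110 * A, fun t x => L * w (L ^ 2 * T + -L ^ 2 * t) (L * x),
    fun t x => L * S (L ^ 2 * T + -L ^ 2 * t) (L * x), ?_, ?_, ?_⟩
  · refine ⟨hTpos, hTpos, hw1.const_mul L, hS1.const_mul L, ?_, ?_, ?_⟩
    · -- positivity
      intro t ht x hx
      rcases eq_or_lt_of_le hx.1 with h0 | h0
      · simp [← h0]
      rcases eq_or_lt_of_le hx.2 with h1 | h1
      · simp [h1]
      rw [key t ht x ⟨h0, h1⟩]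
      have hx' : L * x ∈ Ioo 0 L := ⟨mul_pos hL h0, by nlinarith⟩
      have hφ := hφpos _ (hmaps t ht) (L * x) hx'
      have hb' := abs_le.1 (hb2 _ (hmaps t ht) (L * x) (Ioo_subset_Icc_self hx'))
      have h2 : 0 < 1 + φ (L ^ 2 * T + -L ^ 2 * t) (L * x) *
            dx L (dx L δ) (L ^ 2 * T + -L ^ 2 * t) (L * x) := by linarith [hb'.1]
      have h3 : 0 < 1 - x := by linarith
      positivity
    · -- scalar curvature
      intro t ht x hx
      rw [kint_scale hL, ← hK _ (hmaps t ht) (L * x) (hxL x hx)]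
      rcases eq_or_lt_of_le hx.1 with h0 | h0
      · simp [← h0]
      rcases eq_or_lt_of_le hx.2 with h1 | h1
      · have hφ0 : φ (L ^ 2 * T + -L ^ 2 * t) (L * x) = 0 := by
          rw [h1, mul_one, hB.phi_eq _ (hsub (hmaps t ht)) L ⟨hL.le, le_rfl⟩]
          rw [div_self hL.ne']
          ring
        rw [hφ0, h1]
        simp
        field_simp
      have hx' : L * x ∈ Ioo 0 L := ⟨mul_pos hL h0, by nlinarith⟩
      have hφ := (hφpos _ (hmaps t ht) (L * x) hx').ne'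
      have hb' := abs_le.1 (hb2 _ (hmaps t ht) (L * x) (Ioo_subset_Icc_self hx'))
      have h2 : 1 + φ (L ^ 2 * T + -L ^ 2 * t) (L * x) *
            dx L (dx L δ) (L ^ 2 * T + -L ^ 2 * t) (L * x) ≠ 0 := by
        intro h
        linarith [hb'.1]
      have h3 : 1 - x ≠ 0 := by
        intro h
        linarith
      rw [key t ht x ⟨h0, h1⟩]
      have h4 := h0.ne'
      have h5 := hL.ne'
      field_simp
    · -- flow
      intro t ht x hx
      have hm := hmaps t ht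
      have hd1 : dt (fun t x => L * w (L ^ 2 * T + -L ^ 2 * t) (L * x)) t x
          = L * (-L ^ 2 * dt w (L ^ 2 * T + -L ^ 2 * t) (L * x)) := by
        rw [hw1.dt_const_mul L hIo ht hx, Sm.dt_scale hL hs hwL hm hx]
      have hd2 : dx 1 (dx 1 (fun t x => L * S (L ^ 2 * T + -L ^ 2 * t) (L * x))) t x
          = L * (L * (L * dx L (dx L S) (L ^ 2 * T + -L ^ 2 * t) (L * x))) := by
        have e1 : ∀ y ∈ Icc (0 : ℝ) 1,
            dx 1 (fun t x => L * S (L ^ 2 * T + -L ^ 2 * t) (L * x)) t y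
              = (fun t y => (L * L) * dx L S (L ^ 2 * T + -L ^ 2 * t) (L * y)) t y := by
          intro y hy
          rw [hS1.dx_const_mul L one_pos ht hy, Sm.dx_scale hL one_pos hSL hm hy, mul_one]
          ring
        rw [dx_congr (u := fun t y => (L * L) * dx L S (L ^ 2 * T + -L ^ 2 * t) (L * y)) e1 hx]
        have hdS : Sm (Ioo (0 : ℝ) (1 / 4)) (L * 1) (dx L S) := by
          rw [mul_one]; exact hSS.dx hs hL
        have hdS1 : Sm (Ioo (-T) T) 1 (fun t x => dx L S (L ^ 2 * T + -L ^ 2 * t) (L * x)) :=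
          Sm.scale hL hdS hmaps
        rw [hdS1.dx_const_mul (L * L) one_pos ht hx, Sm.dx_scale hL one_pos hdS hm hx, mul_one]
        ring
      rw [hd1, hd2, hflow _ hm (L * x) (hxL x hx)]
      ring
  · have := hsol.A_pos
    positivity
  · -- the limit
    have hτ : Tendsto (fun t => L ^ 2 * T + -L ^ 2 * t) (𝓝[<] T) (𝓝[>] 0) := by
      apply tendsto_nhdsWithin_of_tendsto_nhds_of_eventually_within
      · have hc : Continuous (fun t : ℝ => L ^ 2 * T + -L ^ 2 * t) := by fun_prop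
        have := (hc.tendsto T).mono_left (nhdsWithin_le_nhds (s := Iio T))
        have h0 : L ^ 2 * T + -L ^ 2 * T = 0 := by ring
        rwa [h0] at this
      · filter_upwards [self_mem_nhdsWithin] with t ht
        have hL2 : 0 < L ^ 2 := by positivity
        have := mul_lt_mul_of_pos_left (show t < T from ht) hL2
        simp only [mem_Ioi]
        linarith
    have h1 := hlim.comp hτ
    have h2 : Tendsto (fun t => 110 * A + √(L ^ 2 * T + -L ^ 2 * t) *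
        dt δ (L ^ 2 * T + -L ^ 2 * t) 0) (𝓝[<] T) (𝓝 (110 * A + 0)) :=
      tendsto_const_nhds.add h1
    rw [add_zero] at h2
    refine h2.congr' ?_
    have hmem : Ioo (-T) T ∈ 𝓝[<] T := Ioo_mem_nhdsLT (by linarith)
    filter_upwards [hmem] with t ht
    have hm := hmaps t ht
    have hsq : √(L ^ 2 * T + -L ^ 2 * t) = L * √(T - t) := by
      have : L ^ 2 * T + -L ^ 2 * t = L ^ 2 * (T - t) := by ring
      rw [this, Real.sqrt_mul (by positivity), Real.sqrt_sq hL.le]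
    have hSv : S (L ^ 2 * T + -L ^ 2 * t) 0
        = 110 * A / √(L ^ 2 * T + -L ^ 2 * t) + dt δ (L ^ 2 * T + -L ^ 2 * t) 0 := by
      simp only [hS]
      rw [hS0 _ (hsub hm), hE0 _ (hsub hm) 0 ⟨le_rfl, zero_le_one⟩, zero_add]
    have hsp : 0 < √(T - t) := Real.sqrt_pos.2 (by linarith [ht.2])
    simp only [mul_zero]
    rw [hSv, hsq]
    field_simp

end Crest.Agent.R213.P
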